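import Crest.Agent.N111.T.Flag
import Crest.Agent.N111.I.Rel

/-! # Row 111 (helper6): `tight : TightStmt` -/

set_option autoImplicit false

namespace Crest.Agent.N111

open Topology Filter Set T

theorem T.freq_switch {P : ℕ → Prop} (h : ∃ᶠ k in atTop, P k) (h' : ∃ᶠ k in atTop, ¬ P k) :
    ∃ᶠ k in atTop, P k ∧ ¬ P (k + 1) := fun hc => by
  obtain ⟨a, ha⟩ := eventually_atTop.1 hc
  obtain ⟨b, hb, hP⟩ := frequently_atTop.1 h a
  refine h' (eventually_atTop.2 ⟨b, fun c hc => not_not.2 ?_⟩)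
  induction hc with
  | refl => exact hP
  | step hm ih => exact not_not.1 fun e => ha _ (hb.trans hm) ⟨ih, e⟩

theorem tight : TightStmt := by
  intro K _ _ _ I hC hN
  have hM := M_pos I
  have h0 : ∀ μ, 0 ≤ u μ := fun μ => Real.log_nonneg (one_le_nm μ)
  have hu : ∀ μ, u (dl μ) = Real.log (nm (ι μ⁻¹)) := fun μ => by rw [u, ι_dl, nm_dl, map_inv]
  obtain ⟨a, ha⟩ := exists_center hC lip_u h0
  obtain ⟨b, hb⟩ := exists_center hC lip_u.dl fun μ => h0 _
  have win : ∀ ε > 0, ∃ R, ∀ k (A : Set Γ),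
      (∀ μ, |u μ - a k| ≤ R → |u (dl μ) - b k| ≤ R → μ ∉ A) → pm I (xi I k) A ≤ ε := fun ε hε => by
    obtain ⟨R, h1⟩ := ha _ (half_pos hε)
    obtain ⟨R', h2⟩ := hb _ (half_pos hε)
    refine ⟨max R R', fun k A h => (pm_le _ fun μ hμ => ?_).trans
      ((add_le_add (h1 k) (h2 k)).trans_eq (add_halves ε))⟩
    by_contra hc
    simp only [mem_union, mem_ofPred_eq, not_or, not_lt] at hc
    exact h μ (hc.1.trans (le_max_left _ _)) (hc.2.trans (le_max_right _ _)) hμ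
  have esc : ∀ {w : Γ → ℝ} {c : ℕ → ℝ}, (∀ B, {μ | w μ ≤ B}.Finite) →
      (∀ ε > 0, ∃ R, ∀ k, pm I (xi I k) {μ | R < |w μ - c k|} ≤ ε) → Tendsto c atTop atTop := by
    intro w c hf h
    obtain ⟨R, h⟩ := h _ (half_pos hM)
    refine tendsto_atTop.2 fun B => ((escape (I := I) (hf (B + R)).toFinset).eventually
      (gt_mem_nhds (half_pos hM))).mono fun k hk => not_lt.1 fun hc => ?_
    have h1 := pm_compl (I := I) (η := xi I k) (hf (B + R)).toFinset
    have h2 := (pm_mono (A := ((hf (B + R)).toFinset : Set Γ)ᶜ) (B := {μ | R < |w μ - c k|})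
      fun μ hμ => by
      simp only [Finite.coe_toFinset, mem_compl_iff, mem_ofPred_eq, not_le] at hμ ⊢
      exact lt_abs.2 (.inl (by linarith))).trans (h k)
    rw [norm_xi] at h1
    linarith
  have fin : ∀ B, {μ | u μ ≤ B}.Finite := fun B => (finite_nm_le (Real.exp B)).subset fun μ hμ =>
    (Real.log_le_iff_le_exp (nm_pos _)).1 hμ
  have ta := esc fin ha
  have tb := esc (fun B => (fin B).preimage (f := dl)
    (Function.Involutive.injective dl_dl).injOn) hb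
  obtain ⟨C, hw⟩ : ∃ C, ∀ᶠ k in atTop, 2 * a k - b k ≤ C ∨ 2 * b k - a k ≤ C := by
    by_contra hc
    simp only [not_exists, not_eventually, not_or, not_le] at hc
    obtain ⟨φ, -, hφ⟩ := extraction_forall_of_frequently fun n : ℕ => hc n
    refine flag (𝒰 := (hyperfilter ℕ).map φ) (fun A hA => ?_) hN
    obtain ⟨_, ⟨s, hs, e⟩, _, ⟨t, ht, e'⟩, rfl⟩ := hA
    obtain ⟨D, hs⟩ := mem_atTop_sets.1 hs
    obtain ⟨D', ht⟩ := mem_atTop_sets.1 ht
    refine tendsto_map'_iff.2 (Tendsto.mono_left (NormedAddGroup.tendsto_nhds_zero.2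
      fun ε hε => ?_) Nat.hyperfilter_le_atTop)
    obtain ⟨R, h⟩ := win _ (half_pos hε)
    filter_upwards [eventually_ge_atTop ⌈max D D' + 3 * R⌉₊] with n hn
    have h1 := (Nat.le_ceil _).trans (Nat.cast_le.2 hn)
    have := le_max_left D D'
    have := le_max_right D D'
    rw [Function.comp_apply, Real.norm_of_nonneg pm_nonneg]
    refine (h _ _ fun μ h2 h3 => not_not.2 ⟨e (hs _ ?_), e' (ht _ ?_)⟩).trans_lt (half_lt_self hε)
    all_goals
      simp only [r, dl_dl]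
      linarith [abs_le.1 h2, abs_le.1 h3, hφ n]
  have h1 : (∀ᶠ k in atTop, b k < a k) ∨ ∀ᶠ k in atTop, ¬ b k < a k := by
    by_contra hc
    simp only [not_or, not_eventually, not_not] at hc
    obtain ⟨R, h⟩ := win _ (show 0 < ‖I.ξ‖ ^ 2 / 4 by positivity)
    obtain ⟨φ, -, hφ⟩ := extraction_forall_of_frequently fun n : ℕ =>
      (freq_switch hc.2 hc.1).and_eventually ((hw.and (ta.eventually_ge_atTop
        (C + 4 * |R| + 2 * n + 2))).and ((tendsto_add_atTop_nat 1).eventually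
          (hw.and (tb.eventually_ge_atTop (C + 4 * |R| + 1)))))
    have hw := lip_u.add lip_u.dl.neg
    obtain ⟨n, hn⟩ := ((drift (I := I) φ (fun n => cl_mem _ 0 n) fun ν ε hε =>
      (hw.slow (fun _ => 0) ν ε hε).mono fun n h μ => (h μ).2).eventually
        (lt_mem_nhds (show -(‖I.ξ‖ ^ 2 / 4) < 0 by linarith))).exists
    obtain ⟨⟨p1, p2⟩, ⟨p3, p4⟩, p5, p6⟩ := hφ n
    have hR := le_abs_self R
    have hR' := abs_nonneg R
    have hn' : (0 : ℝ) ≤ n := n.cast_nonneg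
    have q1 := av_le (I := I) (η := xi I (φ n + 1)) (A := {μ | 0 < u μ + -u (dl μ)})
      (.icc (cl_mem (fun μ => u μ + -u (dl μ)) 0 n)) le_rfl (fun μ => (cl_mem _ _ _ μ).2)
      fun μ hμ => (cl_zero (not_lt.1 hμ)).le
    have q2 := h (φ n + 1) {μ | 0 < u μ + -u (dl μ)} fun μ h2 h3 h4 => by
      rw [mem_ofPred_eq] at h4
      rcases p5 with e | e <;> linarith [abs_le.1 h2, abs_le.1 h3, not_lt.1 p2]
    have q3 := h (φ n) {μ | 0 + (n + 1) ≤ u μ + -u (dl μ)}ᶜ fun μ h2 h3 h4 => h4 (by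
      rw [mem_ofPred_eq]
      rcases p3 with e | e <;> linarith [abs_le.1 h2, abs_le.1 h3])
    have q4 := pm_compl (I := I) (η := xi I (φ n)) {μ | 0 + (n + 1) ≤ u μ + -u (dl μ)}
    have q5 : pm I (xi I (φ n)) {μ | 0 + (n + 1) ≤ u μ + -u (dl μ)} ≤ _ :=
      av_mono (.ind _) (.icc (cl_mem (fun μ => u μ + -u (dl μ)) 0 n)) fun μ =>
        indicator_apply_le' (fun h => (cl_one h).ge) fun _ => (cl_mem _ _ _ μ).1
    rw [norm_xi] at q4
    linarith
  rcases h1 with h1 | h1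
  · refine ⟨fun k => a k / 2, .inl ⟨ta.atTop_div_const two_pos, fun ε hε => ?_⟩⟩
    obtain ⟨R, h⟩ := win ε hε
    refine ⟨R + |C|, ((hw.and h1).and (ta.eventually_gt_atTop C)).mono fun k hk =>
      h k _ fun μ h2 h3 => not_not.2 ⟨?_, ?_⟩⟩
    · rw [mul_div_cancel₀ _ two_ne_zero]
      exact h2.trans (le_add_of_nonneg_right (abs_nonneg C))
    · rw [← hu]
      rcases hk.1.1 with e | e <;> linarith [abs_le.1 h3, hk.1.2, hk.2, le_abs_self C, abs_nonneg C]
  · refine ⟨fun k => b k / 2, .inr fun I' hI => ⟨tb.atTop_div_const two_pos, fun ε hε => ?_⟩⟩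
    obtain ⟨R, h⟩ := win ε hε
    refine ⟨R + |C|, ((hw.and h1).and (tb.eventually_gt_atTop C)).mono fun k hk => le_trans
      (le_of_eq ?_) (h k (dl ⁻¹' (Sh (b k / 2) (R + |C|))ᶜ) fun μ h2 h3 => not_not.2 ⟨?_, ?_⟩)⟩
    · rw [Ind.ms, pm, av, ← (RelAux.invE dl dl_dl).tsum_eq]
      refine tsum_congr fun μ => ?_
      change _ * ‖I'.j (I'.ρ (dl μ)⁻¹ _)‖ ^ 2 = _
      rw [hI.j, hI.ρ, hI.U, hI.ξ, ← map_inv, dl_dl]
      simp only [one_mul, mul_one, one_apply_eq_self]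
      rfl
    · rw [mul_div_cancel₀ _ two_ne_zero]
      exact h3.trans (le_add_of_nonneg_right (abs_nonneg C))
    · rw [← hu, dl_dl]
      rcases hk.1.1 with e | e <;> linarith [abs_le.1 h2, hk.1.2, hk.2, le_abs_self C, abs_nonneg C]

end Crest.Agent.N111
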