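import Crest.Agent.N111.T.Ms

/-! # Row 111, `TightStmt` (helper6), part 4: the flag of a regular matrix -/

set_option autoImplicit false

namespace Crest.Agent.N111.T

open Topology Filter Set Matrix

/-- the level -/
noncomputable def u (μ : Γ) : ℝ := Real.log (nm (ι μ))

/-- the first gap -/
noncomputable def r (μ : Γ) : ℝ := 2 * u μ - u (dl μ)

theorem lip_u : Lip u := fun ν => ⟨_, fun μ => by
  simpa only [u, map_mul] using (abs_log_nm_mul_sub_le (ι μ) (ι ν)).symm⟩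

theorem Lip.dl {w : Γ → ℝ} (h : Lip w) : Lip fun μ => w (dl μ) := fun ν =>
  (h (N111.dl ν)).imp fun D hD μ => by simpa only [map_mul] using hD (N111.dl μ)

theorem lip_r : Lip r := by
  have e : r = fun μ => u μ + u μ + -u (dl μ) := funext fun μ => by rw [r]; ring
  exact e ▸ (lip_u.add lip_u).add lip_u.dl.neg

theorem Lip.tendsto {w : Γ → ℝ} (h : Lip w) (ν : Γ) :
    Tendsto (ν * ·) (comap w atTop) (comap w atTop) := by
  obtain ⟨D, h⟩ := h ν
  exact tendsto_comap_iff.2 (tendsto_atTop_mono (fun μ => by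
    have := (abs_le.1 (h μ).1).1
    change w μ + -D ≤ w (ν * μ)
    linarith) (tendsto_atTop_add_const_right _ _ tendsto_comap))

/-- the regular region -/
noncomputable def Reg : Filter Γ := comap r atTop ⊓ comap (fun μ => r (dl μ)) atTop

theorem Reg_mul (ν : Γ) : Tendsto (ν * ·) Reg Reg := (lip_r.tendsto ν).inf (lip_r.dl.tendsto ν)

theorem Reg_dl : Tendsto (dl : Γ → Γ) Reg (comap r atTop) :=
  tendsto_comap_iff.2 (tendsto_comap.mono_left inf_le_right)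

/-- the unit sphere -/
abbrev Sp : Type := Metric.sphere (0 : V) 1

/-- the projective action -/
noncomputable def sp (g : G) : C(Sp, Sp) where
  toFun a := ⟨nrm (ac g a), by simpa using norm_nrm (ac_ne_zero g (ne_zero_of_mem_unit_sphere a))⟩
  continuous_toFun := (continuousOn_nrm.comp_continuous (by fun_prop)
    fun a => ac_ne_zero g (ne_zero_of_mem_unit_sphere a)).subtype_mk _

theorem sp_neg (g : G) (a : Sp) : sp g (-a) = -sp g a :=
  Subtype.ext (by simp [sp, ac_neg, nrm_neg])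

/-- the attracting point -/
noncomputable def q1 (μ : Γ) : Sp := ⟨nrm (pt μ), by simpa using norm_nrm (pt_ne_zero μ)⟩

theorem close (ν ν' : Γ) {δ : ℝ} (hδ : 0 < δ) : ∀ᶠ μ in comap r atTop,
    dist (sp (ι ν) (q1 μ)) (q1 (ν * μ * ν')) < δ ∨
      dist (sp (ι ν) (q1 μ)) (-q1 (ν * μ * ν')) < δ := by
  have hA := nm_pos (ι ν)⁻¹
  have hB := nm_pos (ι ν')
  have hB' := nm_pos (ι ν')⁻¹
  have h0 := (Real.tendsto_exp_neg_atTop_nhds_zero.comp (tendsto_comap (f := r))).const_mul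
    (8 * 18 * 27 * nm (ι ν)⁻¹ ^ 3 * nm (ι ν') * nm (ι ν')⁻¹)
  rw [mul_zero] at h0
  filter_upwards [h0.eventually (gt_mem_nhds hδ)] with μ hμ
  have hN := nm_pos (ι μ)
  have hN' := nm_pos (ι (dl μ))
  have e : Real.exp (-r μ) = nm (ι (dl μ)) / nm (ι μ) ^ 2 := by
    rw [r, neg_sub, Real.exp_sub, two_mul, Real.exp_add, u, u, Real.exp_log hN, Real.exp_log hN',
      sq]
  have ha := ac_ne_zero (ι ν) (pt_ne_zero μ)
  have hb := pt_ne_zero (ν * μ * ν')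
  have h1 : nm (ι μ) ≤ 3 * nm (ι ν)⁻¹ * ‖ac (ι ν) (pt μ)‖ := by
    simpa only [ac_inv_ac, norm_pt] using norm_ac_le (ι ν)⁻¹ (ac (ι ν) (pt μ))
  have h2 : nm (ι μ) ≤ 3 * (3 * nm (ι ν)⁻¹ * ‖pt (ν * μ * ν')‖) * nm (ι ν')⁻¹ := by
    have := nm_mul_le ((ι ν)⁻¹ * ι (ν * μ * ν')) (ι ν')⁻¹
    rw [show (ι ν)⁻¹ * ι (ν * μ * ν') * (ι ν')⁻¹ = ι μ by simp [mul_assoc]] at this
    refine this.trans ?_
    rw [norm_pt]
    gcongr
    exact nm_mul_le _ _
  have h3 : ‖ac (ι ν) (pt μ) ⨯₃ pt (ν * μ * ν')‖ ≤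
      3 * (3 * nm (ι ν)⁻¹ * nm (ι (dl μ))) * (2 * 1 * nm (ι ν')) := by
    rw [pt, pt, map_mul, map_mul, ← ac_mul, ac_mul _ (ι ν'), ac_cross]
    refine (norm_ac_le _ _).trans ?_
    gcongr
    · rw [map_mul, ← nm_dl, ι_dl]
      exact nm_mul_le _ _
    · refine (norm_cross_le _ _).trans ?_
      rw [norm_ev]
      gcongr
      exact norm_ac_ev_le _ _
  have h4 : 8 * ‖ac (ι ν) (pt μ) ⨯₃ pt (ν * μ * ν')‖ / (‖ac (ι ν) (pt μ)‖ * ‖pt (ν * μ * ν')‖)
      < δ := by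
    refine lt_of_le_of_lt ?_ hμ
    rw [Function.comp_apply, e, ← mul_div_assoc, div_le_div_iff₀ (by positivity) (by positivity), sq]
    calc _ ≤ 8 * (3 * (3 * nm (ι ν)⁻¹ * nm (ι (dl μ))) * (2 * 1 * nm (ι ν'))) *
          ((3 * nm (ι ν)⁻¹ * ‖ac (ι ν) (pt μ)‖) *
            (3 * (3 * nm (ι ν)⁻¹ * ‖pt (ν * μ * ν')‖) * nm (ι ν')⁻¹)) := by gcongr
      _ = _ := by ring
  have e2 : (sp (ι ν) (q1 μ) : V) = nrm (ac (ι ν) (pt μ)) := by
    change nrm (ac _ (_ • _)) = _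
    rw [ac_smul, nrm_smul (inv_pos.2 (norm_pos_iff.2 (pt_ne_zero μ)))]
  simp only [Subtype.dist_eq, dist_eq_norm, e2, coe_neg_sphere, sub_neg_eq_add]
  exact (nrm_close ha hb).imp (·.trans_lt h4) (·.trans_lt h4)

/-- the flag -/
noncomputable def q (μ : Γ) : Sp × Sp := (q1 μ, q1 (dl μ))

/-- the action on flags -/
noncomputable def ψ (ν : Γ) : C(Sp × Sp, Sp × Sp) := (sp (ι ν)).prodMap (sp (ι (dl ν)))

/-- symmetrisation -/
noncomputable def sy (f : C(Sp × Sp, ℂ)) (z : Sp × Sp) : ℂ :=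
  (f z + f (-z.1, z.2) + f (z.1, -z.2) + f (-z.1, -z.2)) / 4

theorem norm_sy_le (f : C(Sp × Sp, ℂ)) (z : Sp × Sp) : ‖sy f z‖ ≤ ‖f‖ := by
  rw [sy, norm_div, div_le_iff₀ (by simp)]
  exact (norm_add_le_of_le (norm_add_le_of_le (norm_add_le_of_le (f.norm_coe_le_norm _)
    (f.norm_coe_le_norm _)) (f.norm_coe_le_norm _)) (f.norm_coe_le_norm _)).trans_eq
      (by simp; ring)

theorem sy_comp (f : C(Sp × Sp, ℂ)) (ν : Γ) (z : Sp × Sp) : sy (f.comp (ψ ν)) z = sy f (ψ ν z) := by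
  simp [sy, ψ, sp_neg, Prod.map]

theorem sy_close (f : C(Sp × Sp, ℂ)) (ν ν' : Γ) :
    Tendsto (fun μ => sy f (q (ν * μ * ν')) - sy f (ψ ν (q μ))) Reg (𝓝 0) := by
  refine NormedAddGroup.tendsto_nhds_zero.2 fun ε hε => ?_
  obtain ⟨δ, hδ, h⟩ := Metric.uniformContinuous_iff.1 (CompactSpace.uniformContinuous_of_continuous
    (show Continuous (sy f) by unfold sy; fun_prop)) ε hε
  have e1 : ∀ a b, sy f (-a, b) = sy f (a, b) := fun a b => by simp only [sy, neg_neg]; ring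
  have e2 : ∀ a b, sy f (a, -b) = sy f (a, b) := fun a b => by simp only [sy, neg_neg]; ring
  filter_upwards [(close ν ν' hδ).filter_mono inf_le_left,
    Reg_dl.eventually (close (dl ν) (dl ν') hδ)] with μ h1 h2
  rw [← map_mul, ← map_mul] at h2
  rw [← dist_eq_norm, dist_comm, q, q]
  rcases h1 with h1 | h1 <;> rcases h2 with h2 | h2
  · exact h (max_lt h1 h2)
  · rw [← e2 (q1 _)]; exact h (max_lt h1 h2)
  · rw [← e1 (q1 _)]; exact h (max_lt h1 h2)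
  · rw [← e1 (q1 _), ← e2 (-q1 _)]; exact h (max_lt h1 h2)

theorem sy_right (f : C(Sp × Sp, ℂ)) (ν : Γ) :
    Tendsto (fun μ => sy f (q (μ * ν)) - sy f (q μ)) Reg (𝓝 0) := by
  simpa using (sy_close f 1 ν).sub (sy_close f 1 1)

theorem dot_q : Tendsto (fun μ => ((q μ).1 : V) ⬝ᵥ ((q μ).2 : V)) Reg (𝓝 0) := by
  refine squeeze_zero_norm (fun μ => ?_) (Real.tendsto_exp_neg_atTop_nhds_zero.comp
    ((tendsto_comap.mono_left inf_le_left).atTop_add_atTop (tendsto_comap.mono_left inf_le_right)))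
  have hN := nm_pos (ι μ)
  have hN' := nm_pos (ι (dl μ))
  have e : Real.exp (-(r μ + r (dl μ))) = (nm (ι μ))⁻¹ * (nm (ι (dl μ)))⁻¹ := by
    rw [← Real.exp_log hN, ← Real.exp_log hN', ← Real.exp_neg, ← Real.exp_neg, ← Real.exp_add]
    simp only [r, dl_dl, u]
    ring_nf
  change ‖(_ • _ : V) ⬝ᵥ (_ • _ : V)‖ ≤ Real.exp (-(r μ + r (dl μ)))
  rw [e, smul_dotProduct, dotProduct_smul, norm_pt, norm_pt, pt, pt, ι_dl, ac_dot_ac_dl, ev_dot_ev]
  rw [ι_dl] at hN'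
  split_ifs
  · simp [abs_of_pos hN, abs_of_pos hN']
  · simp only [smul_zero, norm_zero]; positivity

end Crest.Agent.N111.T
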