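import Crest.Agent.N111.T.Lim
import Crest.Agent.N111.T.Geo
import Crest.Agent.N111.Lib.POVM3

/-! # Row 111, `TightStmt` (helper6), part 5: the mass does not escape into the regular region -/

set_option autoImplicit false
set_option linter.unusedSectionVars false

namespace Crest.Agent.N111.T

open Topology Filter Set Matrix
open scoped InnerProductSpace

variable {K : Type} [NormedAddCommGroup K] [InnerProductSpace ℂ K] [CompleteSpace K]
  (I : Ind K) (𝒰 : Ultrafilter ℕ)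

/-- the limit of the position operators -/
noncomputable def Wl (F : Γ → ℂ) : K →L[ℂ] K := wlim 𝒰 fun k => I.σ k (I.m F)

variable {I 𝒰} {F F' : Γ → ℂ} {C D : ℝ}

theorem inner_σ (k : ℕ) (T : K →L[ℂ] K) (v w : K) :
    ⟪v, I.σ k T w⟫_ℂ = ⟪I.U (al k) v, T (I.U (al k) w)⟫_ℂ := (I.U.inner_left _ _ _).symm

theorem wt (hF : ∀ μ, ‖F μ‖ ≤ C) : WTends 𝒰 (fun k => I.σ k (I.m F)) (Wl I 𝒰 F) :=
  wtends_wlim 𝒰 (C := C) (.of_forall fun _ => (norm_mul_U _ _).trans ((norm_mul_le _ _).trans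
    ((mul_le_of_le_one_left (norm_nonneg _) (I.U.norm_le _)).trans (norm_m_le hF))))

theorem Wl_lin (hF : ∀ μ, ‖F μ‖ ≤ C) (hF' : ∀ μ, ‖F' μ‖ ≤ D) (c : ℂ) :
    Wl I 𝒰 (fun μ => c * F μ + F' μ) = c • Wl I 𝒰 F + Wl I 𝒰 F' :=
  WTends.wlim_eq fun v w => by
    simpa [inner_σ, m_lin hF hF', inner_add_right, inner_smul_right] using
      ((wt (I := I) (𝒰 := 𝒰) hF v w).const_mul c).add (wt (I := I) (𝒰 := 𝒰) hF' v w)

theorem Wl_one : Wl I 𝒰 (fun _ => 1) = 1 := WTends.wlim_eq fun v w => by simp [inner_σ, m_one]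

theorem Wl_mem (hF : ∀ μ, ‖F μ‖ ≤ C) : Wl I 𝒰 F ∈ I.N := fun a ha =>
  ((wt hF).mul_left a).unique (by
    simpa only [Ind.σ, ← N_conj (m_mem hF) _ a ha] using (wt (I := I) (𝒰 := 𝒰) hF).mul_right a)

theorem Wl_ρ (hF : ∀ μ, ‖F μ‖ ≤ C) (ν : Γ) :
    I.ρ ν * Wl I 𝒰 F * I.ρ ν⁻¹ = Wl I 𝒰 fun μ => F (ν⁻¹ * μ) :=
  (WTends.wlim_eq fun v w => by
    simpa [inner_σ, ← ρ_m hF, I.ρ.inner_right, comm_app (I.Uρ _ _)] using
      wt (I := I) (𝒰 := 𝒰) hF (I.ρ ν⁻¹ v) (I.ρ ν⁻¹ w)).symm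

theorem Wl_pos {G : Γ → ℝ} (hG : Bd G) (h : ∀ μ, 0 ≤ G μ) (η : K) :
    0 ≤ (⟪η, Wl I 𝒰 (fun μ => G μ) η⟫_ℂ).re ∧ (⟪η, Wl I 𝒰 (fun μ => G μ) η⟫_ℂ).im = 0 := by
  obtain ⟨C, hC⟩ := id hG
  have := wt (I := I) (𝒰 := 𝒰) (F := fun μ => G μ) (C := C) (by simpa using hC) η η
  simp only [inner_σ, inner_m_real hG] at this
  exact ⟨ge_of_tendsto' ((Complex.continuous_re.tendsto _).comp this) fun k => av_nonneg h,
    tendsto_nhds_unique ((Complex.continuous_im.tendsto _).comp this) tendsto_const_nhds⟩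

variable (hR : ∀ A ∈ Reg, Tendsto (fun k => pm I (xi I k) Aᶜ) 𝒰 (𝓝 0))
include hR

theorem Wl_zero (hF : ∀ μ, ‖F μ‖ ≤ C) (h : Tendsto F Reg (𝓝 0)) : Wl I 𝒰 F = 0 :=
  WTends.wlim_eq (.of_strong fun v => tendsto_zero_iff_norm_tendsto_zero.2 (by
    simpa [Ind.σ] using (m_lim (k := id) hR Reg_mul hF h v).norm))

theorem Wl_congr (hF : ∀ μ, ‖F μ‖ ≤ C) (hF' : ∀ μ, ‖F' μ‖ ≤ D)
    (h : Tendsto (fun μ => F μ - F' μ) Reg (𝓝 0)) : Wl I 𝒰 F = Wl I 𝒰 F' := by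
  simpa [Wl_zero hR (fun μ => norm_sub_le_of_le (hF μ) (hF' μ)) h] using Wl_lin (I := I) (𝒰 := 𝒰)
    (fun μ => norm_sub_le_of_le (hF μ) (hF' μ)) hF' 1

theorem Wl_U (hF : ∀ μ, ‖F μ‖ ≤ 1) (h : ∀ ν, Tendsto (fun μ => F (μ * ν) - F μ) Reg (𝓝 0))
    {g : G} (hg : ∀ s, Commute g (al s)) : Commute (Wl I 𝒰 F) (I.U g) := by
  refine ContinuousLinearMap.ext_on I.dense ?_
  rintro _ ⟨a, ha, μ, rfl⟩
  refine (innerSL_inj (𝕜 := ℂ)).1 (ContinuousLinearMap.ext_on I.dense ?_)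
  rintro _ ⟨b, hb, ν, rfl⟩
  refine (starRingEnd ℂ).injective ?_
  simp only [innerSL_apply_apply, inner_conj_symm]
  have hB : 0 < (‖a‖ + ‖b‖ + 1) * (1 + ‖I.ξ‖) := by positivity
  obtain ⟨a1, a2⟩ := bes_D ha μ _ (show _ ≤ (‖a‖ + ‖b‖ + 1) * (1 + ‖I.ξ‖) by
    gcongr; linarith [norm_nonneg b])
  obtain ⟨b1, b2⟩ := bes_D hb ν _ (show _ ≤ (‖a‖ + ‖b‖ + 1) * (1 + ‖I.ξ‖) by
    gcongr; linarith [norm_nonneg a])
  have := comm_U (l := 𝒰) g (fun k : ℕ => bes_U b1 (al k)) (fun k : ℕ => bes_U a1 (al k))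
    (fun _ => (I.U.norm_map _ _).trans_le b2) (fun _ => (I.U.norm_map _ _).trans_le a2) hB
    (fun _ => hF) fun ν => av_lim' (k := id) hR Reg_mul
      (fun μ => norm_sub_le_of_le (hF _) (hF _)) (h ν) _
  refine sub_eq_zero.1 (tendsto_nhds_unique
    (((wt hF).mul_right _ _ _).sub ((wt hF).mul_left _ _ _)) (this.congr fun k => ?_))
  have e : ∀ v, I.U g (I.U (al k) v) = I.U (al k) (I.U g v) := comm_app ((hg k).map I.U)
  simp only [mul_apply_eq_comp, inner_σ, I.U.inner_right g, e]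
  rw [← comm_app ((hg k).inv_left.map I.U)]

theorem flag (hN : I.NoFlag) : False := by
  have hb : ∀ (f : C(Sp × Sp, ℂ)) μ, ‖sy f (q μ)‖ ≤ ‖f‖ := fun f μ => norm_sy_le f _
  have hl : ∀ (c : ℂ) (f g : C(Sp × Sp, ℂ)), Wl I 𝒰 (fun μ => sy (c • f + g) (q μ)) =
      c • Wl I 𝒰 (fun μ => sy f (q μ)) + Wl I 𝒰 fun μ => sy g (q μ) := fun c f g => by
    rw [← Wl_lin (hb f) (hb g)]
    congr 1
    funext μ
    simp only [sy, ContinuousMap.add_apply, ContinuousMap.smul_apply, smul_eq_mul]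
    ring
  have h0 : Wl I 𝒰 (fun μ => sy 0 (q μ)) = 0 := by simpa using hl 1 0 0
  obtain ⟨P, hP⟩ := POVM.exists_of_pos (K := K)
    { toFun := fun f => Wl I 𝒰 fun μ => sy f (q μ)
      map_add' := fun f g => by simpa using hl 1 f g
      map_smul' := fun c f => by simpa [h0] using hl c f 0 } (fun f η hf => by
      have e : (fun μ => sy f (q μ)) = fun μ => ((sy f (q μ)).re : ℂ) := funext fun μ =>
        Complex.ext (by simp) (by simp [sy, (hf _).2])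
      change 0 ≤ (⟪η, Wl I 𝒰 _ η⟫_ℂ).re ∧ (⟪η, Wl I 𝒰 _ η⟫_ℂ).im = 0
      rw [e]
      refine Wl_pos ⟨_, fun μ => (Complex.abs_re_le_norm _).trans (hb f μ)⟩ (fun μ => ?_) η
      simp only [sy, Complex.div_ofNat_re, Complex.add_re]
      exact div_nonneg (add_nonneg (add_nonneg (add_nonneg (hf _).1 (hf _).1) (hf _).1) (hf _).1)
        (by norm_num)) (by simpa [sy, show (1 + 1 + 1 + 1 : ℂ) / 4 = 1 by norm_num] using Wl_one)
  replace hP : ∀ f : C(Sp × Sp, ℂ), P.E f = Wl I 𝒰 fun μ => sy f (q μ) := hP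
  have hv : Measurable fun z : Sp × Sp => ((z.1 : V), (z.2 : V)) := by fun_prop
  have hc : ∀ S : K →L[ℂ] K, (∀ f : C(Sp × Sp, ℂ), Commute (P.E f) S) →
      ∀ f, BM f → Commute (P.E f) S := fun S h f hf => by
    simpa [commute_iff_eq] using (P.isPoly1.mul 1 S).ext_cont (P.isPoly1.mul S 1)
      (fun f hf _ => by simpa using (h ⟨f, hf⟩).eq) f hf
  have hU : ∀ g : G, (∀ s, Commute g (al s)) → ∀ f, BM f → Commute (P.E f) (I.U g) :=
    fun g hg => hc _ fun f => by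
      have h1 : 0 < ‖f‖ + 1 := by positivity
      have e : f = ((‖f‖ + 1 : ℝ) : ℂ) • ((‖f‖ + 1 : ℝ) : ℂ)⁻¹ • f + 0 := by
        rw [smul_inv_smul₀ (by exact_mod_cast h1.ne'), add_zero]
      rw [hP, e, hl, h0, add_zero]
      refine (Wl_U hR (fun μ => (hb _ μ).trans ?_) (sy_right _) hg).smul_left _
      rw [norm_smul, norm_inv, Complex.norm_real, Real.norm_of_nonneg h1.le, inv_mul_le_iff₀ h1]
      linarith
  have ht : ∀ (i k : Fin 3) (h : i ≠ k) (b : ℝ), i ≠ 0 → k ≠ 0 → ∀ s, Commute (tv h b) (al s) :=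
    fun i k h b hi hk s => by
      have := dg_conj_tv (-2 * s) s h b
      rw [show dgl (-2 * s) s i - dgl (-2 * s) s k = 0 by
        fin_cases i <;> fin_cases k <;> simp [dgl] at hi hk ⊢ <;> ring, Real.exp_zero, one_mul,
        mul_inv_eq_iff_eq_mul] at this
      exact this.symm
  refine hN (P.map _ hv) ?_ (fun f hf a ha => (hc a (fun f => hP f ▸ (Wl_mem (hb f) a ha).symm) _
    (hf.comp hv)).symm) (fun f hf b => ⟨hU _ (ht _ _ _ b (by decide) (by decide)) _ (hf.comp hv),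
      hU _ (ht _ _ _ b (by decide) (by decide)) _ (hf.comp hv)⟩) fun f hf _ ν => ?_
  · let g : C(Sp × Sp, ℂ) := ⟨fun z => ((((z.1 : V) ⬝ᵥ (z.2 : V)) ^ 2 : ℝ) : ℂ), by fun_prop⟩
    have hO : MeasurableSet {z : V × V | ‖z.1‖ = 1 ∧ ‖z.2‖ = 1 ∧ z.1 ⬝ᵥ z.2 = 0} := by
      refine IsClosed.measurableSet ?_
      exact (isClosed_eq (by fun_prop) continuous_const).inter
        ((isClosed_eq (by fun_prop) continuous_const).inter (isClosed_eq (by fun_prop)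
          continuous_const))
    have h1 : P.E g = 0 := by
      rw [hP]
      refine Wl_zero hR (hb g) ?_
      have e : ∀ z, sy g z = g z := fun z => by simp [sy, g]; ring
      simp only [e]
      simpa [g] using (dot_q.pow 2).ofReal
    have h2 := P.mul_E_eq_zero (.of_continuous g.continuous g.norm_coe_le_norm)
      (fun _ => sq_nonneg _) (T := 1) (by rw [one_mul]; exact h1)
      ((BM.const 1).sub ((BM.ic hO).comp hv)) fun z hz => by
        rw [ic_of_mem (by exact ⟨by simp, by simp, by simpa using hz⟩), sub_self]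
    rw [one_mul, P.E_sub (.const 1) ((BM.ic hO).comp hv), P.E_one, sub_eq_zero] at h2
    exact h2.symm
  · refine (P.isPoly1.mul _ _).ext_cont (P.map _ (ψ ν⁻¹).measurable).isPoly1 (fun f hf _ => ?_) _
      (hf.comp hv)
    refine (congrArg (_ * · * _) (hP ⟨f, hf⟩)).trans (.trans ?_
      (hP (ContinuousMap.comp ⟨f, hf⟩ (ψ ν⁻¹))).symm)
    rw [Wl_ρ (hb _)]
    exact Wl_congr hR (fun μ => hb _ _) (hb _) (by simpa [sy_comp] using sy_close ⟨f, hf⟩ ν⁻¹ 1)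

end Crest.Agent.N111.T
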