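import Crest.Agent.N111.T.Op

/-! # Row 111, `TightStmt` (helper6), part 3: Bessel vectors, limits along the flow -/

set_option autoImplicit false
set_option linter.unusedSectionVars false

namespace Crest.Agent.N111.T

open Topology Filter Set
open scoped InnerProductSpace

variable {K : Type} [NormedAddCommGroup K] [InnerProductSpace ℂ K] [CompleteSpace K]
  {I : Ind K} {C B : ℝ} {η : K} {a : K →L[ℂ] K} {α : Type*} {l : Filter α}

theorem bes_ξ : I.Bes 1 I.ξ := fun Y hY s => by simpa using I.bes Y hY s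

theorem bes_ρ (h : I.Bes B η) (ν : Γ) : I.Bes B (I.ρ ν η) := fun Y hY s => by
  simpa [URep.mul_apply] using h Y hY (s.map (Equiv.mulLeft ν⁻¹).toEmbedding)

theorem bes_C (h : I.Bes B η) (ha : a ∈ I.C) : I.Bes (‖a‖ * B) (a η) := fun Y hY s => by
  rw [mul_pow, mul_assoc]
  refine le_trans ?_ (mul_le_mul_of_nonneg_left (h Y hY s) (sq_nonneg _))
  rw [Finset.mul_sum]
  refine Finset.sum_le_sum fun μ _ => ?_
  rw [← comm_app (I.Cρ a ha _), ← comm_app (hY a ha), ← comm_app (I.Cj a ha), ← mul_pow]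
  gcongr
  exact a.le_opNorm _

theorem norm_y (g : G) (v : K) : ‖I.y g v‖ = ‖v‖ :=
  ContinuousLinearMap.norm_map_of_mem_unitary (I.y_un g) v

theorem bes_y (h : I.Bes B η) (g : G) : I.Bes B (I.y g η) := fun Y hY s => by
  simpa [comm_app (I.y_ρ g _),
    ContinuousLinearMap.norm_map_of_mem_unitary (Unitary.star_mem (I.y_un g))] using
    h _ (N_mul hY (I.y_N g)) s

theorem U_eq (g : G) (v : K) : I.U g v = (I.U g * star (I.y g)) (I.y g v) := by
  rw [← mul_apply_eq_comp, mul_assoc, Unitary.star_mul_self_of_mem (I.y_un g), mul_one]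

theorem bes_U (h : I.Bes B η) (g : G) : I.Bes B (I.U g η) := fun Y hY s => by
  have e : ∀ v, ‖I.j (I.U g v)‖ = ‖I.j (I.y g v)‖ := fun v => by
    rw [U_eq, ← comm_app (I.V_j g), ContinuousLinearMap.norm_map_of_mem_unitary
      (mul_mem (I.U.mem_unitary g) (Unitary.star_mem (I.y_un g)))]
  simpa [← e, URep.star_apply, I.V_ξ, comm_app (I.Uρ g _)] using
    h _ (N_mul (I.y_N g) (N_conj hY g)) s

theorem bes_D (ha : a ∈ I.C) (μ : Γ) :
    ∀ B, ‖a‖ * (1 + ‖I.ξ‖) ≤ B → I.Bes B (a (I.ρ μ I.ξ)) ∧ ‖a (I.ρ μ I.ξ)‖ ≤ B := fun B hB =>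
  ⟨fun Y hY s => (bes_C (bes_ρ bes_ξ μ) ha Y hY s).trans (by
    gcongr; nlinarith [norm_nonneg a, norm_nonneg I.ξ]), (a.le_opNorm _).trans (by
      rw [URep.norm_map]; nlinarith [norm_nonneg a])⟩

theorem comm_U (g : G) {η₁ η₂ : α → K} {F : α → Γ → ℂ}
    (h₁ : ∀ t, I.Bes B (η₁ t)) (h₂ : ∀ t, I.Bes B (η₂ t)) (n₁ : ∀ t, ‖η₁ t‖ ≤ B)
    (n₂ : ∀ t, ‖η₂ t‖ ≤ B) (hB : 0 < B) (hF : ∀ t μ, ‖F t μ‖ ≤ 1)
    (h : ∀ ν, Tendsto (fun t => av I (η₂ t) fun μ => ‖F t (μ * ν) - F t μ‖ ^ 2) l (𝓝 0)) :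
    Tendsto (fun t => ⟪η₁ t, I.m (F t) (I.U g (η₂ t))⟫_ℂ - ⟪η₁ t, I.U g (I.m (F t) (η₂ t))⟫_ℂ) l
      (𝓝 0) := by
  refine (comm_lim ⟨I.y_N g, I.y_ρ g⟩ (fun t => bes_y (bes_U (h₁ t) g⁻¹) g) h₂
    (fun t => by rw [norm_y, URep.norm_map]; exact n₁ t) n₂ hB hF h).congr fun t => ?_
  rw [U_eq g (η₂ t), U_eq g (I.m _ _), ← comm_app (commute_m (I.V_j g)
    (fun μ => (I.Uρ g μ).mul_left (star_comm_ρ (I.y_ρ g) μ)) (hF t)), ← inner_star (_ * _),
    ← inner_star (_ * _), star_mul, star_star, URep.star_apply, mul_apply_eq_comp]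

theorem tendsto_of_dense {T : α → K →L[ℂ] K} (hT : ∀ t, ‖T t‖ ≤ C) {D : Set K}
    (hD : Dense (Submodule.span ℂ D : Set K)) (h : ∀ η ∈ D, Tendsto (fun t => T t η) l (𝓝 0))
    (η : K) : Tendsto (fun t => T t η) l (𝓝 0) := by
  have h1 : ∀ η ∈ Submodule.span ℂ D, Tendsto (fun t => T t η) l (𝓝 0) := fun η hη => by
    induction hη using Submodule.span_induction with
    | mem x hx => exact h x hx
    | zero => simpa using tendsto_const_nhds
    | add x y _ _ hx hy => simpa using hx.add hy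
    | smul c x _ hx => simpa using hx.const_smul c
  rw [NormedAddGroup.tendsto_nhds_zero]
  intro ε hε
  obtain ⟨w, hw, e⟩ := hD.exists_dist_lt η (show 0 < ε / 2 / (|C| + 1) by positivity)
  filter_upwards [NormedAddGroup.tendsto_nhds_zero.1 (h1 w hw) _ (half_pos hε)] with t ht
  rw [dist_eq_norm, lt_div_iff₀ (by positivity)] at e
  have h2 := (T t).le_of_opNorm_le ((hT t).trans (le_abs_self C)) (η - w)
  rw [← sub_add_cancel η w, map_add]
  nlinarith [norm_add_le (T t (η - w)) (T t w), norm_nonneg (η - w)]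

theorem norm_mul_U (T : K →L[ℂ] K) (g : G) : ‖T * I.U g‖ ≤ ‖T‖ :=
  (norm_mul_le _ _).trans (mul_le_of_le_one_right (norm_nonneg _) (I.U.norm_le g))

/-- escape of mass -/
theorem escape (s : Finset Γ) : Tendsto (fun k => pm I (xi I k) s) atTop (𝓝 0) := by
  have key : ∀ μ η, Tendsto (fun k : ℕ => (I.j * I.ρ μ * I.U (al k)) η) atTop (𝓝 0) := fun μ => by
    refine tendsto_of_dense (fun k => norm_mul_U _ _) I.sep ?_
    rintro η ⟨-, B, R, h⟩
    rw [NormedAddGroup.tendsto_nhds_zero]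
    by_contra hc
    push Not at hc
    obtain ⟨δ, hδ, hc⟩ := hc
    obtain ⟨φ, h1, h2⟩ := extraction_of_frequently_atTop hc
    obtain ⟨n, hn⟩ := exists_nat_gt (B * ‖star (I.ρ μ) I.ξ‖ ^ 2 / δ ^ 2)
    have h3 := h (I.ρ μ) (fun a ha => I.Cρ a ha μ) n (fun i => al (φ ((⌈R⌉₊ + 1) * i)))
      fun i k hik => by
        have e : ∀ i k : Fin n, i < k → R + φ ((⌈R⌉₊ + 1) * i) < φ ((⌈R⌉₊ + 1) * k) :=
          fun i k h => by
            have := (h1.add_le_nat (⌈R⌉₊ + 1) ((⌈R⌉₊ + 1) * i)).trans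
              (h1.monotone (show _ ≤ (⌈R⌉₊ + 1) * k by nlinarith [show (i : ℕ) < k from h]))
            have h4 : ((⌈R⌉₊ + 1 + φ ((⌈R⌉₊ + 1) * i) : ℕ) : ℝ) ≤ _ := Nat.cast_le.2 this
            push_cast at h4
            linarith [Nat.le_ceil R]
        rw [← al_neg, ← al_add]
        rcases lt_or_gt_of_ne hik with h | h
        · refine lt_of_lt_of_le ?_ ((le_abs_self _).trans (abs_le_nm _ 1 1))
          rw [al, dg_apply, if_pos rfl]
          exact lt_of_lt_of_le (by have := e i k h; simp only [dgl, Matrix.cons_val]; linarith)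
            (Real.add_one_le_exp _)
        · refine lt_of_lt_of_le ?_ ((le_abs_self _).trans (abs_le_nm _ 0 0))
          rw [al, dg_apply, if_pos rfl]
          have h5 : (φ ((⌈R⌉₊ + 1) * k) : ℝ) ≤ φ ((⌈R⌉₊ + 1) * i) :=
            Nat.cast_le.2 (h1.monotone (Nat.mul_le_mul_left _ (le_of_lt h)))
          exact lt_of_lt_of_le (by have := e k i h; simp only [dgl, Matrix.cons_val]; linarith)
            (Real.add_one_le_exp _)
    have h4 := Finset.card_nsmul_le_sum Finset.univ _ _ fun (i : Fin n) _ =>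
      pow_le_pow_left₀ hδ.le (h2 ((⌈R⌉₊ + 1) * i)) 2
    rw [div_lt_iff₀ (by positivity)] at hn
    simp only [Finset.card_univ, Fintype.card_fin, nsmul_eq_mul, mul_apply_eq_comp] at h4
    linarith
  simpa [pm_finset, xi] using tendsto_finsetSum s fun μ _ => (key μ⁻¹ I.ξ).norm.pow 2

/-- slow drift -/
theorem drift (k : ℕ → ℕ) {F : ℕ → Γ → ℝ} (hF : ∀ n μ, F n μ ∈ Icc (0 : ℝ) 1)
    (h : ∀ ν, ∀ ε > 0, ∀ᶠ n in atTop, ∀ μ, |F n (μ * ν) - F n μ| ≤ ε) :
    Tendsto (fun n => av I (xi I (k n + 1)) (F n) - av I (xi I (k n)) (F n)) atTop (𝓝 0) := by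
  have hF' : ∀ n μ, ‖(F n μ : ℂ)‖ ≤ 1 := fun n μ => by
    simpa using abs_le.2 ⟨by linarith [(hF n μ).1], (hF n μ).2⟩
  obtain ⟨b1, b2⟩ := bes_D I.one_C 1 _ le_rfl
  rw [map_one, one_apply_eq_self, one_apply_eq_self] at b1 b2
  have := comm_U (l := atTop) (al 1) (η₁ := fun n => xi I (k n + 1)) (η₂ := fun n => xi I (k n))
    (fun _ => bes_U b1 _) (fun _ => bes_U b1 _) (fun _ => (norm_xi _).trans_le b2)
    (fun _ => (norm_xi _).trans_le b2) ((norm_pos_iff.2 I.ξ_ne).trans_le b2) hF' fun ν => by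
      refine NormedAddGroup.tendsto_nhds_zero.2 fun ε hε => ?_
      have hM := M_pos I
      filter_upwards [h ν √(ε / 2 / ‖I.ξ‖ ^ 2) (by positivity)] with n hn
      rw [Real.norm_of_nonneg (av_nonneg fun _ => sq_nonneg _)]
      refine (av_mono (.nsq fun μ => norm_sub_le_of_le (hF' n _) (hF' n _))
        (.const (ε / 2 / ‖I.ξ‖ ^ 2)) fun μ => ?_).trans_lt ?_
      · rw [← Complex.ofReal_sub, Complex.norm_real, ← Real.le_sqrt (norm_nonneg _) (by positivity)]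
        exact hn μ
      · rw [av_const, norm_xi, div_mul_cancel₀ _ hM.ne']
        linarith
  have e : ∀ k, xi I (k + 1) = I.U (al 1) (xi I k) := fun k => by
    rw [xi, xi, ← URep.mul_apply, ← al_add, Nat.cast_succ, add_comm]
  simp only [e, URep.inner_map_map, inner_m_real (.icc (hF _))] at this ⊢
  simpa [Function.comp_def] using (Complex.continuous_re.tendsto _).comp this

section
variable {𝓡 : Filter Γ} {k : α → ℕ}
  (hR : ∀ A ∈ 𝓡, Tendsto (fun t => pm I (xi I (k t)) Aᶜ) l (𝓝 0))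
  (hl : ∀ ν, Tendsto (ν * ·) 𝓡 𝓡) {F : Γ → ℂ} (hF : ∀ μ, ‖F μ‖ ≤ C) (h : Tendsto F 𝓡 (𝓝 0))
include hR hF h

theorem av_lim : Tendsto (fun t => av I (xi I (k t)) fun μ => ‖F μ‖ ^ 2) l (𝓝 0) := by
  refine NormedAddGroup.tendsto_nhds_zero.2 fun ε hε => ?_
  have hM := M_pos I
  have h1 := (hR _ ((show Tendsto (fun μ => ‖F μ‖ ^ 2) 𝓡 (𝓝 0) by simpa using h.norm.pow 2).eventually
    (ge_mem_nhds (show 0 < ε / 2 / ‖I.ξ‖ ^ 2 by positivity)))).const_mul (C ^ 2)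
  rw [mul_zero] at h1
  filter_upwards [h1.eventually (gt_mem_nhds (half_pos hε))] with t ht
  rw [Real.norm_of_nonneg (av_nonneg fun _ => sq_nonneg _)]
  refine (av_le (A := {μ | ‖F μ‖ ^ 2 ≤ ε / 2 / ‖I.ξ‖ ^ 2}ᶜ) (C := C ^ 2) (.nsq hF)
    (show 0 ≤ ε / 2 / ‖I.ξ‖ ^ 2 by positivity) (fun μ => by gcongr; exact hF μ)
    fun μ hμ => by simpa using hμ).trans_lt ?_
  rw [norm_xi, div_mul_cancel₀ _ hM.ne']
  linarith

include hl

theorem m_lim (η : K) : Tendsto (fun t => I.m F (I.U (al (k t)) η)) l (𝓝 0) := by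
  refine tendsto_of_dense (T := fun t => I.m F * I.U (al (k t))) (fun t => norm_mul_U _ _)
    I.dense ?_ η
  rintro _ ⟨a, ha, μ, rfl⟩
  refine squeeze_zero_norm (fun t => ?_) (by
    simpa using (av_lim hR (fun ν => hF (μ * ν)) (h.comp (hl μ))).sqrt.const_mul ‖a‖)
  have e := congrArg (fun T => T (xi I (k t))) (ρ_m (I := I) hF μ⁻¹)
  have e2 := comm_app (m_mem (I := I) hF _ (I.conj_C a ha (al (k t)))) (I.ρ μ (xi I (k t)))
  simp only [mul_apply_eq_comp, inv_inv, xi, ← comm_app (I.Uρ _ μ), URep.inv_apply_apply] at e e2 ⊢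
  rw [← e2, URep.norm_map]
  refine (a.le_opNorm _).trans (mul_le_mul_of_nonneg_left ?_ (norm_nonneg _))
  rw [URep.norm_map, ← I.ρ.norm_map μ⁻¹, e]
  exact norm_m_apply (fun ν => hF (μ * ν)) _

theorem av_lim' (η : K) :
    Tendsto (fun t => av I (I.U (al (k t)) η) fun μ => ‖F μ‖ ^ 2) l (𝓝 0) := by
  have := m_lim hR hl (F := fun μ => ((‖F μ‖ ^ 2 : ℝ) : ℂ)) (C := C ^ 2)
    (fun μ => by rw [Complex.norm_real, norm_pow, norm_norm]; gcongr; exact hF μ)
    (by simpa using (h.norm.pow 2).ofReal) η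
  refine squeeze_zero_norm (fun t => ?_) (by simpa using this.norm.const_mul ‖η‖)
  rw [← Complex.norm_real, ← inner_m_real (.nsq hF)]
  exact (norm_inner_le_norm _ _).trans_eq (by simp)

end

end Crest.Agent.N111.T
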