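import Crest.Agent.N111.Lib.Geo

/-! # Row 111, `TightStmt` (helper6), part 1: masses, medians -/

set_option autoImplicit false
set_option linter.unusedSectionVars false

namespace Crest.Agent.N111.T

open Topology Filter Set

variable {K : Type} [NormedAddCommGroup K] [InnerProductSpace ℂ K] [CompleteSpace K] (I : Ind K)

/-- the mass of `η` against `F` -/
noncomputable def av (η : K) (F : Γ → ℝ) : ℝ := ∑' μ, F μ * ‖I.j (I.ρ μ⁻¹ η)‖ ^ 2

/-- the mass of a set -/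
noncomputable def pm (η : K) (A : Set Γ) : ℝ := av I η (A.indicator fun _ => 1)

/-- bounded -/
def Bd (F : Γ → ℝ) : Prop := ∃ C, ∀ μ, |F μ| ≤ C

variable {I} {η : K} {F F' : Γ → ℝ} {A B : Set Γ}

theorem Bd.sm (h : Bd F) : Summable fun μ => F μ * ‖I.j (I.ρ μ⁻¹ η)‖ ^ 2 := by
  obtain ⟨C, h⟩ := h
  refine .of_norm_bounded ((I.pars η).summable.mul_left C) fun μ => ?_
  rw [norm_mul, Real.norm_of_nonneg (sq_nonneg _)]
  exact mul_le_mul_of_nonneg_right (h μ) (sq_nonneg _)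

theorem Bd.ind (A : Set Γ) : Bd (A.indicator fun _ => 1) :=
  ⟨1, fun μ => by by_cases h : μ ∈ A <;> simp [h]⟩

theorem Bd.icc (h : ∀ μ, F μ ∈ Icc (0 : ℝ) 1) : Bd F :=
  ⟨1, fun μ => abs_le.2 ⟨by linarith [(h μ).1], (h μ).2⟩⟩

theorem Bd.add (h : Bd F) (h' : Bd F') : Bd fun μ => F μ + F' μ := by
  obtain ⟨C, h⟩ := h
  obtain ⟨D, h'⟩ := h'
  exact ⟨C + D, fun μ => (abs_add_le _ _).trans (add_le_add (h μ) (h' μ))⟩

theorem Bd.mul (h : Bd F) (h' : Bd F') : Bd fun μ => F μ * F' μ := by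
  obtain ⟨C, h⟩ := h
  obtain ⟨D, h'⟩ := h'
  exact ⟨C * D, fun μ => (abs_mul _ _).trans_le
    (mul_le_mul (h μ) (h' μ) (abs_nonneg _) ((abs_nonneg _).trans (h μ)))⟩

theorem Bd.const (c : ℝ) : Bd fun _ => c := ⟨|c|, fun _ => le_rfl⟩

theorem av_mono (h : Bd F) (h' : Bd F') (e : ∀ μ, F μ ≤ F' μ) : av I η F ≤ av I η F' :=
  h.sm.tsum_le_tsum (fun μ => mul_le_mul_of_nonneg_right (e μ) (sq_nonneg _)) h'.sm

theorem av_add (h : Bd F) (h' : Bd F') : av I η (fun μ => F μ + F' μ) = av I η F + av I η F' := by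
  simp only [av, add_mul]
  exact h.sm.tsum_add h'.sm

theorem av_mul (c : ℝ) : av I η (fun μ => c * F μ) = c * av I η F := by
  simp only [av, mul_assoc, tsum_mul_left]

theorem av_const (c : ℝ) : av I η (fun _ => c) = c * ‖η‖ ^ 2 := by
  simp only [av, tsum_mul_left, (I.pars η).tsum_eq]

theorem av_nonneg (e : ∀ μ, 0 ≤ F μ) : 0 ≤ av I η F :=
  tsum_nonneg fun μ => mul_nonneg (e μ) (sq_nonneg _)

theorem pm_nonneg : 0 ≤ pm I η A := av_nonneg fun _ => indicator_nonneg (fun _ _ => zero_le_one) _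

theorem pm_le (C : Set Γ) (h : C ⊆ A ∪ B) : pm I η C ≤ pm I η A + pm I η B := by
  rw [pm, pm, pm, ← av_add (.ind _) (.ind _)]
  refine av_mono (.ind _) ((Bd.ind _).add (.ind _)) fun μ => ?_
  have := @h μ
  by_cases a : μ ∈ A <;> by_cases b : μ ∈ B <;> by_cases c : μ ∈ C <;> simp_all

theorem pm_mono (h : A ⊆ B) : pm I η A ≤ pm I η B :=
  av_mono (.ind _) (.ind _) (indicator_le_indicator_of_subset h fun _ => zero_le_one)

theorem pm_compl (A : Set Γ) : pm I η A + pm I η Aᶜ = ‖η‖ ^ 2 := by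
  rw [pm, pm, ← av_add (.ind _) (.ind _), ← one_mul (‖η‖ ^ 2), ← av_const (I := I)]
  congr 1
  funext μ
  by_cases h : μ ∈ A <;> simp [h]

/-- `F ≤ ε` off `A` -/
theorem av_le (h : Bd F) {C ε : ℝ} (hε : 0 ≤ ε) (hC : ∀ μ, F μ ≤ C) (e : ∀ μ ∉ A, F μ ≤ ε) :
    av I η F ≤ C * pm I η A + ε * ‖η‖ ^ 2 := by
  rw [pm, ← av_mul, ← av_const (I := I), ← av_add ((Bd.const _).mul (.ind _)) (.const _)]
  refine av_mono h (((Bd.const _).mul (.ind _)).add (.const _)) fun μ => ?_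
  by_cases a : μ ∈ A
  · simpa [a] using (hC μ).trans (le_add_of_nonneg_right hε)
  · simpa [a] using e μ a

theorem pm_finset (s : Finset Γ) : pm I η s = ∑ μ ∈ s, ‖I.j (I.ρ μ⁻¹ η)‖ ^ 2 := by
  rw [pm, av, tsum_eq_sum (s := s) fun μ h => by simp [h]]
  exact Finset.sum_congr rfl fun μ h => by simp [h]

theorem tendsto_pm_compl (η : K) :
    Tendsto (fun s : Finset Γ => pm I η (s : Set Γ)ᶜ) atTop (𝓝 0) := by
  have := (I.pars η).const_sub (‖η‖ ^ 2)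
  rw [sub_self] at this
  refine this.congr fun s => ?_
  rw [← pm_finset, ← pm_compl (I := I) (s : Set Γ)]
  ring

theorem sq_av_le (h : ∀ μ, F μ ∈ Icc (0 : ℝ) 1) {M : ℝ} (hM : 0 < M) (hA : pm I η A ≤ M / 2)
    (e : ∀ μ ∉ A, F μ = 0) : 2 * av I η F ^ 2 ≤ M * av I η fun μ => F μ ^ 2 := by
  have h2 : Bd fun μ => F μ ^ 2 := by simpa only [sq] using (Bd.icc h).mul (.icc h)
  obtain ⟨t, ht⟩ : ∃ t, t = 2 * av I η F / M := ⟨_, rfl⟩
  have : av I η (fun μ => 2 * t * F μ) ≤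
      av I η fun μ => F μ ^ 2 + t ^ 2 * A.indicator (fun _ => 1) μ :=
    av_mono ((Bd.const _).mul (.icc h)) (h2.add ((Bd.const _).mul (.ind _))) fun μ => by
      by_cases a : μ ∈ A
      · simp only [a, indicator_of_mem]; nlinarith [sq_nonneg (F μ - t)]
      · simp [a, e μ a]
  rw [av_add h2 ((Bd.const _).mul (.ind _)), av_mul, av_mul] at this
  have h3 : av I η F = t * M / 2 := by rw [ht]; field_simp
  have h4 := mul_le_mul_of_nonneg_left hA (sq_nonneg t)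
  rw [h3] at this ⊢
  unfold pm at h4
  nlinarith

/-- two-sided Lipschitz -/
def Lip (w : Γ → ℝ) : Prop :=
  ∀ ν, ∃ D, ∀ μ, |w (ν * μ) - w μ| ≤ D ∧ |w (μ * ν) - w μ| ≤ D

theorem Lip.neg {w : Γ → ℝ} (h : Lip w) : Lip fun μ => -w μ := fun ν => by
  simpa only [← neg_sub', abs_neg] using h ν

theorem Lip.add {w w' : Γ → ℝ} (h : Lip w) (h' : Lip w') : Lip fun μ => w μ + w' μ := fun ν => by
  obtain ⟨D, h⟩ := h ν
  obtain ⟨D', h'⟩ := h' ν
  refine ⟨D + D', fun μ => ⟨?_, ?_⟩⟩ <;> rw [add_sub_add_comm] <;> refine (abs_add_le _ _).trans ?_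
  exacts [add_le_add (h μ).1 (h' μ).1, add_le_add (h μ).2 (h' μ).2]

/-- clamp -/
noncomputable def cl (w : Γ → ℝ) (c : ℝ) (n : ℕ) (μ : Γ) : ℝ := max 0 (min 1 ((w μ - c) / (n + 1)))

theorem cl_mem (w : Γ → ℝ) (c : ℝ) (n : ℕ) (μ : Γ) : cl w c n μ ∈ Icc (0 : ℝ) 1 :=
  ⟨le_max_left _ _, max_le zero_le_one (min_le_left _ _)⟩

theorem cl_zero {w : Γ → ℝ} {c : ℝ} {n : ℕ} {μ : Γ} (h : w μ ≤ c) : cl w c n μ = 0 :=
  max_eq_left ((min_le_right _ _).trans (div_nonpos_of_nonpos_of_nonneg (by linarith)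
    (by positivity)))

theorem cl_one {w : Γ → ℝ} {c : ℝ} {n : ℕ} {μ : Γ} (h : c + (n + 1) ≤ w μ) : cl w c n μ = 1 := by
  rw [cl, min_eq_left ((one_le_div (by positivity)).2 (by linarith)), max_eq_right zero_le_one]

theorem Lip.slow {w : Γ → ℝ} (h : Lip w) (c : ℕ → ℝ) (ν : Γ) (ε : ℝ) (hε : 0 < ε) :
    ∀ᶠ n in atTop, ∀ μ, |cl w (c n) n (ν * μ) - cl w (c n) n μ| ≤ ε ∧
      |cl w (c n) n (μ * ν) - cl w (c n) n μ| ≤ ε := by
  obtain ⟨D, h⟩ := h ν
  filter_upwards [eventually_ge_atTop ⌈D / ε⌉₊] with n hn μ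
  have h1 : D ≤ ε * (n + 1) := by
    have := (Nat.le_ceil _).trans (Nat.cast_le.2 hn)
    rw [div_le_iff₀ hε] at this
    linarith
  have key : ∀ a b, |w a - w b| ≤ D → |cl w (c n) n a - cl w (c n) n b| ≤ ε := fun a b e => by
    refine (abs_max_sub_max_le_max _ _ _ _).trans (max_le (by simpa using hε.le)
      ((abs_min_sub_min_le_max _ _ _ _).trans (max_le (by simpa using hε.le) ?_)))
    rw [← sub_div, abs_div, abs_of_pos (a := (n + 1 : ℝ)) (by positivity), sub_sub_sub_cancel_right,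
      div_le_iff₀ (by positivity)]
    exact e.trans h1
  exact ⟨key _ _ (h μ).1, key _ _ (h μ).2⟩

/-- the vector `U(α_k) ξ` -/
noncomputable def xi (I : Ind K) (k : ℕ) : K := I.U (al k) I.ξ

theorem norm_xi (k : ℕ) : ‖xi I k‖ = ‖I.ξ‖ := I.U.norm_map _ _

theorem M_pos (I : Ind K) : 0 < ‖I.ξ‖ ^ 2 := pow_pos (norm_pos_iff.2 I.ξ_ne) 2

theorem one_side (hC : I.Conc) {w : Γ → ℝ} (hw : Lip w) {c : ℕ → ℝ}
    (hc : ∀ k, pm I (xi I k) {μ | c k < w μ} ≤ ‖I.ξ‖ ^ 2 / 2) {ε : ℝ} (hε : 0 < ε) :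
    ∃ R, ∀ k, pm I (xi I k) {μ | c k + R ≤ w μ} ≤ ε := by
  by_contra h
  push Not at h
  choose k hk using fun n : ℕ => h (n + 1)
  have h1 := hC k (fun n => cl w (c (k n)) n) (fun n => cl_mem _ _ _) (hw.slow _)
  have hM := M_pos I
  obtain ⟨n, hn⟩ := (h1.eventually (gt_mem_nhds (show 0 < ‖I.ξ‖ ^ 2 * ε / 2 by positivity))).exists
  have h2 := sq_av_le (cl_mem w (c (k n)) n) hM (hc (k n)) fun μ hμ => cl_zero (not_lt.1 hμ)
  have h3 : pm I (xi I (k n)) _ ≤ av I (xi I (k n)) fun μ => cl w (c (k n)) n μ ^ 2 :=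
    av_mono (.ind {μ | c (k n) + (n + 1) ≤ w μ})
      (by simpa only [sq] using (Bd.icc (cl_mem _ _ _)).mul (.icc (cl_mem _ _ _))) fun μ => by
      by_cases a : μ ∈ {μ | c (k n) + (n + 1) ≤ w μ}
      · rw [indicator_of_mem a, cl_one a, one_pow]
      · rw [indicator_of_notMem a]; positivity
  have h4 := mul_lt_mul_of_pos_left ((hk n).trans_le h3) hM
  change _ * av I (xi I (k n)) _ - av I (xi I (k n)) _ ^ 2 < _ at hn
  linarith

theorem exists_center (hC : I.Conc) {w : Γ → ℝ} (hw : Lip w) (h0 : ∀ μ, 0 ≤ w μ) :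
    ∃ c : ℕ → ℝ, ∀ ε > 0, ∃ R, ∀ k, pm I (xi I k) {μ | R < |w μ - c k|} ≤ ε := by
  classical
  have hM := M_pos I
  have h1 : ∀ k, ∃ n : ℕ, pm I (xi I k) {μ | (n : ℝ) < w μ} ≤ ‖I.ξ‖ ^ 2 / 2 := fun k => by
    obtain ⟨s, hs⟩ := ((tendsto_pm_compl (I := I) (xi I k)).eventually
      (gt_mem_nhds (half_pos hM))).exists
    obtain ⟨b, hb⟩ := (s.finite_toSet.image w).bddAbove
    exact ⟨⌈b⌉₊, (pm_mono fun μ hμ h => (hb (mem_image_of_mem w h)).not_gt
      ((Nat.le_ceil b).trans_lt hμ)).trans hs.le⟩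
  refine ⟨fun k => Nat.find (h1 k), fun ε hε => ?_⟩
  obtain ⟨R, hR⟩ := one_side hC hw (fun k => Nat.find_spec (h1 k)) (half_pos hε)
  obtain ⟨R', hR'⟩ := one_side hC hw.neg (c := fun k => 1 - Nat.find (h1 k)) (fun k => by
    rcases e : Nat.find (h1 k) with _ | n
    · refine (pm_mono (B := ((∅ : Finset Γ) : Set Γ)) fun μ hμ => ?_).trans ?_
      · have := h0 μ
        simp only [mem_ofPred_eq, Nat.cast_zero] at hμ
        linarith
      · rw [pm_finset, Finset.sum_empty]; positivity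
    · have h2 := Nat.find_min (h1 k) (m := n) (by omega)
      have h3 := pm_compl (I := I) (η := xi I k) {μ | (n : ℝ) < w μ}
      rw [norm_xi] at h3
      refine (pm_mono (B := {μ | (n : ℝ) < w μ}ᶜ) fun μ hμ h => ?_).trans (by linarith)
      simp only [mem_ofPred_eq, Nat.cast_succ] at hμ h
      linarith) (half_pos hε)
  refine ⟨|R| + |R'| + 1, fun k => (pm_le _ fun μ hμ => ?_).trans
    ((add_le_add (hR k) (hR' k)).trans_eq (add_halves ε))⟩
  simp only [mem_ofPred_eq, mem_union, lt_abs] at hμ ⊢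
  have := le_abs_self R
  have := le_abs_self R'
  have := abs_nonneg R
  have := abs_nonneg R'
  exact hμ.imp (fun h => by linarith) fun h => by linarith

end Crest.Agent.N111.T
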