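import Crest.Agent.N111.T.Ms
import Crest.Agent.N111.Lib.MClass

/-! # Row 111, `TightStmt` (helper6), part 2: the position operators, finite propagation -/

set_option autoImplicit false
set_option linter.unusedSectionVars false

namespace Crest.Agent.N111.T

open Topology Filter Set
open scoped InnerProductSpace

variable {K : Type} [NormedAddCommGroup K] [InnerProductSpace ℂ K] [CompleteSpace K]

theorem exists_lp {a : Γ → K} {A : ℝ} (hA : 0 ≤ A) (h : ∀ s : Finset Γ, ∑ μ ∈ s, ‖a μ‖ ^ 2 ≤ A ^ 2) :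
    ∃ v : LG K, (∀ μ, v μ = a μ) ∧ ‖v‖ ≤ A :=
  ⟨⟨a, memℓp_gen' (C := A ^ 2) (by simpa using h)⟩, fun _ => rfl,
    lp.norm_le_of_forall_sum_le (by norm_num) hA (by simpa using h)⟩

/-- Cauchy-Schwarz for series -/
theorem cs {a b : Γ → K} {A B : ℝ} (hA : 0 ≤ A) (hB : 0 ≤ B)
    (ha : ∀ s : Finset Γ, ∑ μ ∈ s, ‖a μ‖ ^ 2 ≤ A ^ 2)
    (hb : ∀ s : Finset Γ, ∑ μ ∈ s, ‖b μ‖ ^ 2 ≤ B ^ 2) :
    ∃ z, HasSum (fun μ => ⟪a μ, b μ⟫_ℂ) z ∧ ‖z‖ ≤ A * B := by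
  obtain ⟨v, h1, h2⟩ := exists_lp hA ha
  obtain ⟨w, h3, h4⟩ := exists_lp hB hb
  exact ⟨_, by simpa only [h1, h3] using lp.hasSum_inner (𝕜 := ℂ) v w,
    (norm_inner_le_norm _ _).trans (by gcongr)⟩

theorem hs_congr {f g : Γ → ℂ} {z : ℂ} (h : HasSum f z) (e : ∀ μ, g μ = f μ) : HasSum g z :=
  funext e ▸ h

variable {I : Ind K} {F F' : Γ → ℂ} {C B : ℝ} {η η₁ η₂ : K} {Y y a : K →L[ℂ] K}

theorem sum_le (I : Ind K) (η : K) (s : Finset Γ) :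
    ∑ μ ∈ s, ‖I.j (I.ρ μ⁻¹ η)‖ ^ 2 ≤ ‖η‖ ^ 2 :=
  sum_le_hasSum s (fun _ _ => sq_nonneg _) (I.pars η)

theorem Bd.nsq (hF : ∀ μ, ‖F μ‖ ≤ C) : Bd fun μ => ‖F μ‖ ^ 2 :=
  ⟨C ^ 2, fun μ => by rw [abs_sq]; gcongr; exact hF μ⟩

theorem sum_le_av (hF : ∀ μ, ‖F μ‖ ≤ C) (η : K) (s : Finset Γ) :
    ∑ μ ∈ s, ‖F μ • I.j (I.ρ μ⁻¹ η)‖ ^ 2 ≤ √(av I η fun μ => ‖F μ‖ ^ 2) ^ 2 := by
  rw [Real.sq_sqrt (av_nonneg fun _ => sq_nonneg _)]
  simp only [norm_smul, mul_pow]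
  exact (Bd.nsq hF).sm.sum_le_tsum s fun _ _ => by positivity

theorem sqrt_av_le (hF : ∀ μ, ‖F μ‖ ≤ C) (η : K) : √(av I η fun μ => ‖F μ‖ ^ 2) ≤ C * ‖η‖ := by
  have := (norm_nonneg _).trans (hF 1)
  rw [Real.sqrt_le_left (by positivity), mul_pow, ← av_const (I := I)]
  exact av_mono (.nsq hF) (.const _) fun μ => by gcongr; exact hF μ

theorem mJ_apply (hF : ∀ μ, ‖F μ‖ ≤ C) (η : K) (μ : Γ) :
    I.mJ F η μ = F μ • I.j (I.ρ μ⁻¹ η) := by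
  choose v h1 h2 using fun η => exists_lp (Real.sqrt_nonneg _) (sum_le_av (I := I) hF η)
  have h : ∃ S : K →L[ℂ] LG K, ∀ η μ, S η μ = (F μ • (I.j * I.ρ μ⁻¹)) η :=
    ⟨LinearMap.mkContinuous ⟨⟨v, fun x y => lp.ext (funext fun μ => by simp [h1])⟩, fun c x =>
      lp.ext (funext fun μ => by simp [h1, smul_comm c])⟩ C
      fun η => (h2 η).trans (sqrt_av_le hF η), h1⟩
  rw [Ind.mJ, rows, dif_pos h]
  exact h.choose_spec η μ

theorem hasSum_m (hF : ∀ μ, ‖F μ‖ ≤ C) (η₁ η₂ : K) :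
    HasSum (fun μ => F μ * ⟪I.j (I.ρ μ⁻¹ η₁), I.j (I.ρ μ⁻¹ η₂)⟫_ℂ) ⟪η₁, I.m F η₂⟫_ℂ := by
  have e : I.J = I.mJ fun _ => 1 := by simp [Ind.J, Ind.mJ]
  have := lp.hasSum_inner (𝕜 := ℂ) (I.J η₁) (I.mJ F η₂)
  rw [← ContinuousLinearMap.adjoint_inner_right] at this
  refine hs_congr this fun μ => ?_
  rw [e, mJ_apply hF, mJ_apply (F := fun _ => 1) (C := 1) (by simp), one_smul, inner_smul_right]

theorem norm_m_apply (hF : ∀ μ, ‖F μ‖ ≤ C) (η : K) :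
    ‖I.m F η‖ ≤ √(av I η fun μ => ‖F μ‖ ^ 2) := by
  obtain ⟨z, h1, h2⟩ := cs (norm_nonneg _) (Real.sqrt_nonneg _) (sum_le I (I.m F η))
    (sum_le_av hF η)
  simp only [inner_smul_right] at h1
  rw [h1.unique (hasSum_m hF _ _), inner_self_eq_norm_sq_to_K] at h2
  rcases (norm_nonneg (I.m F η)).eq_or_lt with h | h
  · rw [← h]; positivity
  · exact le_of_mul_le_mul_left (by simpa [sq] using h2) h

theorem norm_m_le (hF : ∀ μ, ‖F μ‖ ≤ C) : ‖I.m F‖ ≤ C :=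
  ContinuousLinearMap.opNorm_le_bound _ ((norm_nonneg _).trans (hF 1)) fun η =>
    (norm_m_apply hF η).trans (sqrt_av_le hF η)

theorem inner_m_real {G : Γ → ℝ} (hG : Bd G) (η : K) :
    ⟪η, I.m (fun μ => G μ) η⟫_ℂ = av I η G := by
  obtain ⟨C, h⟩ := id hG
  refine (hasSum_m (C := C) (by simpa using h) η η).unique ?_
  simpa [inner_self_eq_norm_sq_to_K, av] using
    Complex.hasSum_ofReal.2 (hG.sm (I := I) (η := η)).hasSum

theorem m_one : I.m (fun _ => 1) = 1 := op_ext fun η => by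
  simpa [av_const, inner_self_eq_norm_sq_to_K] using inner_m_real (I := I) (.const 1) η

theorem m_ext {S T : K →L[ℂ] K} (h : ∀ η₁ η₂, ⟪η₁, S η₂⟫_ℂ = ⟪η₁, T η₂⟫_ℂ) : S = T :=
  op_ext fun _ => h _ _

theorem m_lin {D : ℝ} (hF : ∀ μ, ‖F μ‖ ≤ C) (hF' : ∀ μ, ‖F' μ‖ ≤ D) (c : ℂ) :
    I.m (fun μ => c * F μ + F' μ) = c • I.m F + I.m F' := m_ext fun η₁ η₂ => by
  refine (hasSum_m (C := ‖c‖ * C + D) (fun μ => norm_add_le_of_le (by
    rw [norm_mul]; gcongr; exact hF μ) (hF' μ)) η₁ η₂).unique ?_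
  simpa [inner_add_right, inner_smul_right, add_mul, mul_assoc] using
    ((hasSum_m hF η₁ η₂).mul_left c).add (hasSum_m hF' η₁ η₂)

theorem star_comm_ρ {S : K →L[ℂ] K} (h : ∀ μ, Commute S (I.ρ μ)) (μ : Γ) :
    Commute (star S) (I.ρ μ) := by
  simpa only [URep.star_apply, inv_inv] using (h μ⁻¹).star_star

theorem comm_app {S T : K →L[ℂ] K} (h : Commute S T) (η : K) : S (T η) = T (S η) :=
  congrArg (fun A : K →L[ℂ] K => A η) h.eq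

theorem inner_star (S : K →L[ℂ] K) (v w : K) : ⟪star S v, w⟫_ℂ = ⟪v, S w⟫_ℂ :=
  ContinuousLinearMap.adjoint_inner_left S w v

theorem inner_j (v w : K) : ⟪I.j v, w⟫_ℂ = ⟪v, I.j w⟫_ℂ := by rw [← inner_star I.j, I.j_sa]

theorem commute_m {S : K →L[ℂ] K} (hj : Commute S I.j) (hρ : ∀ μ, Commute S (I.ρ μ))
    (hF : ∀ μ, ‖F μ‖ ≤ C) : Commute S (I.m F) := m_ext fun η₁ η₂ => by
  have h1 : Commute (star S) I.j := by simpa only [I.j_sa] using hj.star_star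
  refine ((inner_star S _ _).symm.trans ((hasSum_m hF _ η₂).unique ?_))
  refine hs_congr (hasSum_m (I := I) hF η₁ (S η₂)) fun μ => ?_
  rw [← comm_app (hρ _), ← comm_app hj, ← comm_app (star_comm_ρ hρ _), ← comm_app h1, inner_star]

theorem m_mem (hF : ∀ μ, ‖F μ‖ ≤ C) : I.m F ∈ I.N := fun a ha =>
  commute_m (I.Cj a ha) (I.Cρ a ha) hF

theorem ρ_m (hF : ∀ μ, ‖F μ‖ ≤ C) (ν : Γ) :
    I.ρ ν * I.m F * I.ρ ν⁻¹ = I.m fun μ => F (ν⁻¹ * μ) := m_ext fun η₁ η₂ => by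
  refine ((I.ρ.inner_right ν _ _).trans ((hasSum_m hF _ (I.ρ ν⁻¹ η₂)).unique ?_))
  simpa only [Function.comp_def, Equiv.coe_mulLeft, inv_mul_cancel_left, mul_inv_rev,
    URep.mul_apply] using (Equiv.mulLeft ν).hasSum_iff.2 (hasSum_m (fun μ => hF (ν⁻¹ * μ)) η₁ η₂)

theorem star_m (hF : ∀ μ, ‖F μ‖ ≤ C) : star (I.m F) = I.m fun μ => (starRingEnd ℂ) (F μ) :=
  m_ext fun η₁ η₂ => by
    rw [← inner_conj_symm, inner_star]
    refine HasSum.unique ?_ (hasSum_m (C := C) (by simpa using hF) η₁ η₂)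
    simpa using (hasSum_m hF η₂ η₁).mapL (Complex.conjCLE : ℂ →L[ℝ] ℂ)

theorem m_split (s : Finset Γ) (η : K) :
    η = I.m (ic (s : Set Γ)ᶜ) η + ∑ ν ∈ s, I.ρ ν (I.j (I.j (I.ρ ν⁻¹ η))) := by
  refine ext_inner_left ℂ fun w => ?_
  have h1 := hasSum_m (I := I) (F := fun _ => 1) (C := 1) (by simp) w η
  have h2 := (hasSum_m (I := I) (norm_ic_le (s : Set Γ)ᶜ) w η).add (hasSum_sum_of_ne_finset_zero (s := s)
    (f := fun μ => ic (s : Set Γ) μ * ⟪I.j (I.ρ μ⁻¹ w), I.j (I.ρ μ⁻¹ η)⟫_ℂ) (L := .unconditional _)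
      fun μ h => by simp [h])
  simp only [ic_compl, ← add_mul, sub_add_cancel] at h2
  rw [m_one] at h1
  rw [ic_compl, inner_add_right, inner_sum]
  refine (h1.unique h2).trans (congrArg _ (Finset.sum_congr rfl fun μ h => ?_))
  rw [I.ρ.inner_right, inner_j, ic_of_mem h, one_mul]

theorem norm_j_le (I : Ind K) (η : K) : ‖I.j η‖ ≤ ‖η‖ := by
  have := sum_le I η {1}
  rw [Finset.sum_singleton, inv_one, map_one] at this
  exact (pow_le_pow_iff_left₀ (norm_nonneg _) (norm_nonneg _) two_ne_zero).1 this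

theorem N_mul {S T : K →L[ℂ] K} (h : S ∈ I.N) (h' : T ∈ I.N) : S * T ∈ I.N :=
  Set.mul_mem_centralizer h h'

theorem N_star (h : Y ∈ I.N) : star Y ∈ I.N := fun a ha => by
  simpa only [star_mul, star_star] using congrArg star (h _ (I.star_C a ha)).symm

theorem N_conj (h : Y ∈ I.N) (g : G) : I.U g⁻¹ * Y * I.U g ∈ I.N := fun a ha => by
  have := congrArg (fun T => I.U g⁻¹ * T * I.U g) (h _ (I.conj_C a ha g))
  simp only [mul_assoc, URep.inv_mul_self, mul_one] at this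
  simp only [← mul_assoc, URep.inv_mul_self, one_mul] at this ⊢
  exact this

theorem band (y : K →L[ℂ] K) (ν : Γ) (η : K) (t : Finset Γ) :
    ∑ μ ∈ t, ‖I.j (y (I.ρ ν (I.j (I.j (I.ρ (μ * ν)⁻¹ η)))))‖ ^ 2 ≤ (‖y‖ * ‖η‖) ^ 2 := by
  have := sum_le I η (t.map (Equiv.mulRight ν).toEmbedding)
  rw [Finset.sum_map] at this
  rw [mul_pow]
  refine le_trans ?_ (mul_le_mul_of_nonneg_left this (sq_nonneg _))
  rw [Finset.mul_sum]
  refine Finset.sum_le_sum fun μ _ => ?_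
  rw [← mul_pow]
  gcongr
  refine (norm_j_le I _).trans ((y.le_opNorm _).trans ?_)
  rw [URep.norm_map]
  gcongr
  exact norm_j_le I _

theorem far (hy : y ∈ I.Q) (hB : 0 ≤ B) (h : I.Bes B η₂) (hF : ∀ μ, ‖F μ‖ ≤ 1) (s : Finset Γ)
    (η₁ : K) : ∃ z : ℂ, ‖z‖ ≤ ‖η₁‖ * (B * ‖I.m (ic (s : Set Γ)ᶜ) (star y I.ξ)‖) ∧
      ∃ w : Γ → ℂ, (∀ ν, HasSum (fun μ => F μ * ⟪I.j (I.ρ μ⁻¹ η₁),
        I.j (y (I.ρ ν (I.j (I.j (I.ρ (μ * ν)⁻¹ η₂)))))⟫_ℂ) (w ν)) ∧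
      ⟪η₁, I.m F (y η₂)⟫_ℂ = z + ∑ ν ∈ s, w ν := by
  have hF' : ∀ μ, ‖(starRingEnd ℂ) (F μ)‖ ≤ 1 := by simpa using hF
  have h1 := fun s => (sum_le_av (I := I) hF' η₁ s).trans
    (pow_le_pow_left₀ (Real.sqrt_nonneg _) (sqrt_av_le hF' η₁) 2)
  rw [one_mul] at h1
  obtain ⟨z, z1, z2⟩ := cs (norm_nonneg _)
    (b := fun μ => I.j ((y * I.m (ic (s : Set Γ)ᶜ)) (I.ρ μ⁻¹ η₂)))
    (B := B * ‖I.m (ic (s : Set Γ)ᶜ) (star y I.ξ)‖) (by positivity) h1 fun t => by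
      simpa [star_m (norm_ic_le _), mul_pow] using h _ (N_mul hy.1 (m_mem (norm_ic_le _))) t
  choose w w1 w2 using fun ν => cs (norm_nonneg _)
    (b := fun μ => I.j (y (I.ρ ν (I.j (I.j (I.ρ (μ * ν)⁻¹ η₂))))))
    (by positivity) h1 (band y ν η₂)
  simp only [inner_smul_left, Complex.conj_conj] at z1 w1
  refine ⟨z, z2, w, w1, (hasSum_m hF _ _).unique ?_⟩
  refine hs_congr (z1.add (hasSum_sum fun ν (_ : ν ∈ s) => w1 ν)) fun μ => ?_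
  conv_lhs => rw [← comm_app (hy.2 _), m_split (I := I) s (I.ρ μ⁻¹ η₂)]
  simp only [map_add, map_sum, inner_add_right, inner_sum, mul_add, Finset.mul_sum, mul_inv_rev,
    URep.mul_apply, mul_apply_eq_comp]

theorem Q_star (hy : y ∈ I.Q) : star y ∈ I.Q := ⟨N_star hy.1, star_comm_ρ hy.2⟩

theorem tendsto_m_compl (η : K) :
    Tendsto (fun s : Finset Γ => ‖I.m (ic (s : Set Γ)ᶜ) η‖) atTop (𝓝 0) := by
  refine squeeze_zero (fun _ => norm_nonneg _) (fun s => (norm_m_apply (norm_ic_le _) η).trans_eq ?_)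
    (by simpa using (tendsto_pm_compl (I := I) η).sqrt)
  congr 2
  funext μ
  by_cases h : μ ∈ (s : Set Γ)ᶜ <;> simp [h]

/-- finite propagation -/
theorem comm_lim {α : Type*} {l : Filter α} (hy : y ∈ I.Q) {η₁ η₂ : α → K} {F : α → Γ → ℂ}
    (h₁ : ∀ t, I.Bes B (η₁ t)) (h₂ : ∀ t, I.Bes B (η₂ t)) (n₁ : ∀ t, ‖η₁ t‖ ≤ B)
    (n₂ : ∀ t, ‖η₂ t‖ ≤ B) (hB : 0 < B) (hF : ∀ t μ, ‖F t μ‖ ≤ 1)
    (h : ∀ ν, Tendsto (fun t => av I (η₂ t) fun μ => ‖F t (μ * ν) - F t μ‖ ^ 2) l (𝓝 0)) :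
    Tendsto (fun t => ⟪η₁ t, I.m (F t) (y (η₂ t))⟫_ℂ - ⟪η₁ t, y (I.m (F t) (η₂ t))⟫_ℂ) l (𝓝 0) := by
  classical
  rw [NormedAddGroup.tendsto_nhds_zero]
  intro ε hε
  have hδ : 0 < ε / (4 * B ^ 2) := by positivity
  have hi : Tendsto (fun s : Finset Γ => s.map (Equiv.inv Γ).toEmbedding) atTop atTop :=
    (Equiv.inv Γ).finsetCongr.toOrderIso (fun _ _ h => Finset.map_subset_map.2 h)
      (fun _ _ h => Finset.map_subset_map.2 h) |>.tendsto_atTop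
  obtain ⟨s, s1, s2⟩ := (((tendsto_m_compl (I := I) (star y I.ξ)).eventually
    (gt_mem_nhds hδ)).and (((tendsto_m_compl (I := I) (y I.ξ)).comp hi).eventually
      (gt_mem_nhds hδ))).exists
  have h3 := tendsto_finsetSum s fun ν _ => (h ν⁻¹).sqrt.const_mul (‖y‖ * B)
  simp only [Real.sqrt_zero, mul_zero, Finset.sum_const_zero] at h3
  filter_upwards [h3.eventually (gt_mem_nhds (half_pos hε))] with t ht
  obtain ⟨z, z1, w, w1, e⟩ := far hy hB.le (h₂ t) (hF t) s (η₁ t)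
  obtain ⟨z', z2, w', w2, e'⟩ := far (Q_star hy) hB.le (h₁ t)
    (F := fun μ => (starRingEnd ℂ) (F t μ)) (by simpa using hF t)
      (s.map (Equiv.inv Γ).toEmbedding) (η₂ t)
  rw [← star_m (hF t), ← inner_conj_symm, inner_star, inner_star, Finset.sum_map] at e'
  rw [star_star] at z2
  have key : ∀ ν, ‖w ν - (starRingEnd ℂ) (w' ν⁻¹)‖ ≤
      ‖y‖ * B * √(av I (η₂ t) fun μ => ‖F t (μ * ν⁻¹) - F t μ‖ ^ 2) := fun ν => by
    obtain ⟨u, u1, u2⟩ := cs (by positivity) (Real.sqrt_nonneg _) (band (star y) ν⁻¹ (η₁ t))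
      (sum_le_av (I := I) (F := fun μ => F t (μ * ν⁻¹) - F t μ) (C := 1 + 1)
        (fun μ => norm_sub_le_of_le (hF t _) (hF t _)) (η₂ t))
    rw [norm_star] at u2
    refine le_trans (le_of_eq (congrArg _ (HasSum.unique ?_ u1))) (u2.trans (by gcongr; exact n₁ t))
    refine hs_congr (((Equiv.mulRight ν⁻¹).hasSum_iff.2 (w1 ν)).sub
      ((w2 ν⁻¹).mapL (Complex.conjCLE : ℂ →L[ℝ] ℂ))) fun μ => ?_
    simp only [Function.comp_def, Equiv.coe_mulRight, inv_mul_cancel_right, inner_smul_right,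
      sub_mul, ContinuousLinearEquiv.coe_coe, Complex.conjCLE_apply, map_mul, Complex.conj_conj,
      inner_conj_symm]
    congr 2
    generalize I.j (I.ρ (μ * ν⁻¹)⁻¹ (η₁ t)) = v
    rw [inner_j, inner_star, comm_app (hy.2 ν), I.ρ.inner_left, inv_inv, inner_j,
      ← comm_app (hy.2 ν)]
  have e2 := congrArg (starRingEnd ℂ) e'
  rw [Complex.conj_conj, map_add, map_sum] at e2
  rw [e, e2, add_sub_add_comm, ← Finset.sum_sub_distrib]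
  have h4 := (norm_sum_le _ _).trans (Finset.sum_le_sum fun ν (_ : ν ∈ s) => key ν)
  have h5 : ∀ a b : ℝ, a ≤ B → 0 ≤ b → b < ε / (4 * B ^ 2) → a * (B * b) ≤ ε / 4 :=
    fun a b h1 h2 h3 => by
      rw [lt_div_iff₀ (by positivity)] at h3
      nlinarith [mul_le_mul_of_nonneg_right h1 (mul_nonneg hB.le h2)]
  have h6 := norm_sub_le_of_le (z1.trans (h5 _ _ (n₁ t) (norm_nonneg _) s1))
    ((Complex.norm_conj z').trans_le (z2.trans (h5 _ _ (n₂ t) (norm_nonneg _) s2)))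
  exact (norm_add_le_of_le h6 h4).trans_lt (by linarith)

end Crest.Agent.N111.T
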